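import Mathlib

namespace Vale.Agent.P372

open Matrix Filter Topology
open scoped ComplexOrder ENNReal

/-- A density operator: positive semidefinite with trace one. -/
def IsState {n : Type} [Fintype n] (ρ : Matrix n n ℂ) : Prop :=
  ρ.PosSemidef ∧ ρ.trace = 1

/-- A finite convex combination of product states. -/
def IsSeparable {a b : Type} [Fintype a] [Fintype b] (ρ : Matrix (a × b) (a × b) ℂ) : Prop :=
  ∃ (m : ℕ) (p : Fin m → ℝ) (α : Fin m → Matrix a a ℂ) (β : Fin m → Matrix b b ℂ),
    (∀ i, 0 ≤ p i) ∧ ∑ i, p i = 1 ∧ (∀ i, IsState (α i)) ∧ (∀ i, IsState (β i)) ∧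
      ρ = ∑ i, (p i : ℂ) • kroneckerMap (· * ·) (α i) (β i)

/-- The trace norm, trace of the square root of `X* X`. -/
noncomputable def traceNorm {n : Type} [Fintype n] [DecidableEq n] (X : Matrix n n ℂ) : ℝ :=
  (cfc Real.sqrt (X.conjTranspose * X)).trace.re

/-- Partial trace over the first factor. -/
def traceLeft {h e : Type} [Fintype h] (X : Matrix (h × e) (h × e) ℂ) : Matrix e e ℂ :=
  Matrix.of fun i j => ∑ x, X (x, i) (x, j)

/-- Partial trace over the second factor. -/
def traceRight {h e : Type} [Fintype e] (X : Matrix (h × e) (h × e) ℂ) : Matrix h h ℂ :=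
  Matrix.of fun x y => ∑ i, X (x, i) (y, i)

/-- The rank one operator of a vector. -/
def pureState {h : Type} (ψ : h → ℂ) : Matrix h h ℂ :=
  vecMulVec ψ (star ψ)

/-- A measurement with outcomes in `K`. -/
def IsPOVM {K : Type} [Fintype K] {a : ℕ} (M : K → Matrix (Fin a) (Fin a) ℂ) : Prop :=
  (∀ k, (M k).PosSemidef) ∧ ∑ k, M k = 1

/-- LOCC protocols with finitely many rounds and keys in `K`, for Alice holding dimension `a`
and Bob dimension `b`. In a round one party applies a quantum instrument (public outcome `x`,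
Kraus operators `F x i`, arbitrary new local dimension `d x`), announces `x`, and the protocol
continues depending on `x`. At the end both parties measure to obtain their keys. -/
inductive Protocol (K : Type) [Fintype K] : ℕ → ℕ → Type
  | output {a b : ℕ} (M : K → Matrix (Fin a) (Fin a) ℂ) (N : K → Matrix (Fin b) (Fin b) ℂ)
      (hM : IsPOVM M) (hN : IsPOVM N) : Protocol K a b
  | alice {a b : ℕ} (m r : ℕ) (d : Fin m → ℕ)
      (F : (x : Fin m) → Fin r → Matrix (Fin (d x)) (Fin a) ℂ)
      (hF : ∑ x, ∑ i, (F x i).conjTranspose * F x i = 1)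
      (next : (x : Fin m) → Protocol K (d x) b) : Protocol K a b
  | bob {a b : ℕ} (m r : ℕ) (d : Fin m → ℕ)
      (F : (x : Fin m) → Fin r → Matrix (Fin (d x)) (Fin b) ℂ)
      (hF : ∑ x, ∑ i, (F x i).conjTranspose * F x i = 1)
      (next : (x : Fin m) → Protocol K a (d x)) : Protocol K a b

/-- The complete public transcripts of a protocol. -/
def Transcript {K : Type} [Fintype K] : {a b : ℕ} → Protocol K a b → Type
  | _, _, .output _ _ _ _ => Unit
  | _, _, .alice m _ _ _ _ next => Sigma fun x : Fin m => Transcript (next x)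
  | _, _, .bob m _ _ _ _ next => Sigma fun x : Fin m => Transcript (next x)

instance finiteTranscript {K : Type} [Fintype K] {a b : ℕ} (P : Protocol K a b) :
    Finite (Transcript P) := by
  induction P with
  | output => exact inferInstanceAs (Finite Unit)
  | alice m r d F hF next ih =>
    exact inferInstanceAs (Finite (Sigma fun x : Fin m => Transcript (next x)))
  | bob m r d F hF next ih =>
    exact inferInstanceAs (Finite (Sigma fun x : Fin m => Transcript (next x)))

noncomputable instance fintypeTranscript {K : Type} [Fintype K] {a b : ℕ} (P : Protocol K a b) :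
    Fintype (Transcript P) :=
  Fintype.ofFinite _

noncomputable instance decEqTranscript {K : Type} [Fintype K] {a b : ℕ} (P : Protocol K a b) :
    DecidableEq (Transcript P) :=
  Classical.decEq _

/-- The unnormalised state left on the system `E` when the protocol, run on the state `ρ` of
`ABE`, produces the transcript `t`, key `k` for Alice and key `l` for Bob. -/
noncomputable def branch {K : Type} [Fintype K] {E : Type} [Fintype E] [DecidableEq E] :
    {a b : ℕ} → (P : Protocol K a b) →
      Matrix ((Fin a × Fin b) × E) ((Fin a × Fin b) × E) ℂ → Transcript P → K → K → Matrix E E ℂ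
  | _, _, .output M N _ _, ρ, _, k, l =>
      traceLeft (kroneckerMap (· * ·) (kroneckerMap (· * ·) (M k) (N l)) (1 : Matrix E E ℂ) * ρ)
  | _, b, .alice _ _ _ F _ next, ρ, t, k, l =>
      branch (next t.1)
        (∑ i, kroneckerMap (· * ·) (kroneckerMap (· * ·) (F t.1 i) (1 : Matrix (Fin b) (Fin b) ℂ))
            (1 : Matrix E E ℂ) * ρ *
          (kroneckerMap (· * ·) (kroneckerMap (· * ·) (F t.1 i) (1 : Matrix (Fin b) (Fin b) ℂ))
            (1 : Matrix E E ℂ)).conjTranspose) t.2 k l
  | a, _, .bob _ _ _ F _ next, ρ, t, k, l =>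
      branch (next t.1)
        (∑ i, kroneckerMap (· * ·) (kroneckerMap (· * ·) (1 : Matrix (Fin a) (Fin a) ℂ) (F t.1 i))
            (1 : Matrix E E ℂ) * ρ *
          (kroneckerMap (· * ·) (kroneckerMap (· * ·) (1 : Matrix (Fin a) (Fin a) ℂ) (F t.1 i))
            (1 : Matrix E E ℂ)).conjTranspose) t.2 k l

/-- The final state on the two key registers and the system of Eve, which consists of `E` and a
copy of the transcript. -/
noncomputable def finalState {K : Type} [Fintype K] [DecidableEq K] {E : Type} [Fintype E]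
    [DecidableEq E] {a b : ℕ} (P : Protocol K a b)
    (ρ : Matrix ((Fin a × Fin b) × E) ((Fin a × Fin b) × E) ℂ) :
    Matrix ((K × K) × (E × Transcript P)) ((K × K) × (E × Transcript P)) ℂ :=
  ∑ k, ∑ l, ∑ t, kroneckerMap (· * ·) (single (k, l) (k, l) (1 : ℂ))
    (kroneckerMap (· * ·) (branch P ρ t k l) (single t t (1 : ℂ)))

/-- The protocol with `ℓ`-bit keys has error `ε` on the state `ρ` of `ABE`. -/
def HasError {ℓ : ℕ} {E : Type} [Fintype E] [DecidableEq E] {a b : ℕ}
    (P : Protocol (Fin ℓ → Bool) a b)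
    (ρ : Matrix ((Fin a × Fin b) × E) ((Fin a × Fin b) × E) ℂ) (ε : ℝ) : Prop :=
  ∃ σ : Matrix (E × Transcript P) (E × Transcript P) ℂ, IsState σ ∧
    traceNorm (finalState P ρ -
      ((2 : ℂ) ^ ℓ)⁻¹ • ∑ z : Fin ℓ → Bool,
        kroneckerMap (· * ·) (single (z, z) (z, z) (1 : ℂ)) σ) ≤ ε

/-- The vector of `n` independent copies of `ψ`; the `n` systems of Alice are one system of
dimension `a ^ n`, and likewise for Bob. -/
noncomputable def copies {a b e : ℕ} (ψ : (Fin a × Fin b) × Fin e → ℂ) (n : ℕ) :
    (Fin (a ^ n) × Fin (b ^ n)) × (Fin n → Fin e) → ℂ :=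
  fun x => ∏ i, ψ ((finFunctionFinEquiv.symm x.1.1 i, finFunctionFinEquiv.symm x.1.2 i), x.2 i)

/-- The distillable secret key when Eve holds the third system of the vector `ψ`. -/
noncomputable def keyRate {a b e : ℕ} (ψ : (Fin a × Fin b) × Fin e → ℂ) : ℝ≥0∞ :=
  ⨆ (ℓ : ℕ → ℕ) (P : (n : ℕ) → Protocol (Fin (ℓ n) → Bool) (a ^ n) (b ^ n)) (ε : ℕ → ℝ)
    (_ : Tendsto ε atTop (𝓝 0)) (_ : ∀ n, HasError (P n) (pureState (copies ψ n)) (ε n)),
    liminf (fun n => (ℓ n : ℝ≥0∞) / (n : ℝ≥0∞)) atTop

end Vale.Agent.P372
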